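import Vale.Agent.P050.TDefs

/-!
Statement-level definitions.
-/

namespace Vale.Agent.P050.H936

/-- Series-parallel parts: graphs with a first and a second terminal. `edge`: one edge between the
terminals. `ser p q`: the second terminal of `p` glued to the first terminal of `q`. `par p q`:
both terminals of `p` and `q` glued. `hang p q`: the first terminals of `p` and `q` glued, the
terminals being those of `p`. `rev p`: `p` with its terminals exchanged. -/
inductive SP : Type
  | edge : SP
  | ser (p q : SP) : SP
  | par (p q : SP) : SP
  | hang (p q : SP) : SP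
  | rev (p : SP) : SP

/-- the length: the distance of the terminals -/
def SP.len : SP → ℕ
  | .edge => 1
  | .ser p q => p.len + q.len
  | .par p _ => p.len
  | .hang p _ => p.len
  | .rev p => p.len

/-- only parts of the same length, at least 2, are put in parallel -/
def SP.Ok : SP → Prop
  | .edge => True
  | .ser p q => p.Ok ∧ q.Ok
  | .par p q => p.Ok ∧ q.Ok ∧ p.len = q.len ∧ 2 ≤ p.len
  | .hang p q => p.Ok ∧ q.Ok
  | .rev p => p.Ok

/-- the number of parallel compositions of parts of length at most `μ` -/
def SP.gain (μ : ℕ) : SP → ℕ
  | .edge => 0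
  | .ser p q => p.gain μ + q.gain μ
  | .par p q => p.gain μ + q.gain μ + if p.len ≤ μ then 1 else 0
  | .hang p q => p.gain μ + q.gain μ
  | .rev p => p.gain μ

/-- the vertices which are not terminals -/
def SP.In : SP → Type
  | .edge => Empty
  | .ser p q => Unit ⊕ (p.In ⊕ q.In)
  | .par p q => p.In ⊕ q.In
  | .hang p q => Unit ⊕ (p.In ⊕ q.In)
  | .rev p => p.In

/-- the edges of the part, with terminals `x`, `y` and other vertices `f i` -/
def SP.rel {W : Type} : (p : SP) → W → W → (p.In → W) → W → W → Prop
  | .edge, x, y, _, a, b => a = x ∧ b = y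
  | .ser p q, x, y, f, a, b => p.rel x (f (.inl ())) (fun i => f (.inr (.inl i))) a b ∨
      q.rel (f (.inl ())) y (fun i => f (.inr (.inr i))) a b
  | .par p q, x, y, f, a, b => p.rel x y (fun i => f (.inl i)) a b ∨
      q.rel x y (fun i => f (.inr i)) a b
  | .hang p q, x, y, f, a, b => p.rel x y (fun i => f (.inr (.inl i))) a b ∨
      q.rel x (f (.inl ())) (fun i => f (.inr (.inr i))) a b
  | .rev p, x, y, f, a, b => p.rel y x f a b

/-- A finite multigraph is given by its vertex set `V`, its edge set `E` and the two ends `s e`,
`t e` of each edge `e`. The graph obtained from it by replacing each edge `e` by the part `g e`,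
the terminals of `g e` being `s e` and `t e`. -/
def spGraph {V E : Type} (s t : E → V) (g : E → SP) : SimpleGraph (V ⊕ (Σ e : E, (g e).In)) :=
  SimpleGraph.fromRel fun a b =>
    ∃ e, (g e).rel (Sum.inl (s e)) (Sum.inl (t e)) (fun i => Sum.inr ⟨e, i⟩) a b

end Vale.Agent.P050.H936
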