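import Vale.Agent.P050.H546.GSpec
import Vale.Agent.P050.H936.Defs2

/-!
The rows: every edge of a multigraph is replaced by a series-parallel part.
-/

set_option linter.unusedSectionVars false

namespace Vale.Agent.P050.H936

open Finset Vale.Agent.P050.H148 Vale.Agent.P050.Cart Vale.Agent.P050.M18 Vale.Agent.P050.H546

instance SP.finIn : (p : SP) → Fintype p.In
  | .edge => inferInstanceAs (Fintype Empty)
  | .ser p q => by
    haveI := SP.finIn p
    haveI := SP.finIn q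
    exact inferInstanceAs (Fintype (Unit ⊕ (p.In ⊕ q.In)))
  | .par p q => by
    haveI := SP.finIn p
    haveI := SP.finIn q
    exact inferInstanceAs (Fintype (p.In ⊕ q.In))
  | .hang p q => by
    haveI := SP.finIn p
    haveI := SP.finIn q
    exact inferInstanceAs (Fintype (Unit ⊕ (p.In ⊕ q.In)))
  | .rev p => by
    haveI := SP.finIn p
    exact inferInstanceAs (Fintype p.In)

/-- the number of edges -/
def SP.size : SP → ℕ
  | .edge => 1
  | .ser p q => p.size + q.size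
  | .par p q => p.size + q.size
  | .hang p q => p.size + q.size
  | .rev p => p.size

/-- the number of inner vertices -/
def SP.num : SP → ℕ
  | .edge => 0
  | .ser p q => p.num + q.num + 1
  | .par p q => p.num + q.num
  | .hang p q => p.num + q.num + 1
  | .rev p => p.num

/-- the weight of the part -/
def SP.wt {U : Type} [Fintype U] (A : U → U → ℝ) : SP → U → U → ℝ
  | .edge, x, y => A x y
  | .ser p q, x, y => ∑ z, p.wt A x z * q.wt A z y
  | .par p q, x, y => p.wt A x y * q.wt A x y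
  | .hang p q, x, y => p.wt A x y * ∑ z, q.wt A x z
  | .rev p, x, y => p.wt A y x

/-- the number of homomorphisms of `spGraph s t g` -/
def ng {V E U : Type} [Fintype V] [DecidableEq V] [Fintype E] [Fintype U] (s t : E → V)
    (g : E → SP) (A : U → U → ℝ) : ℝ :=
  ∑ x : V → U, ∏ e, (g e).wt A (x (s e)) (x (t e))

/-- [N2] -/
def NumStmt : Prop := ∀ p : SP, Fintype.card p.In = p.num

/-- [G2] the graph side -/
def Graph2Stmt : Prop := ∀ (V E X : Type) [Fintype V] [DecidableEq V] [Fintype E] [Fintype X]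
  [Nonempty X] (s t : E → V), (∀ e, s e ≠ t e) → ∀ (g : E → SP) (G : SimpleGraph X),
  homDensity (spGraph s t g) G * (Fintype.card X : ℝ) ^ (Fintype.card V + ∑ e, (g e).num) =
    ng s t g (adj G)

/-- [C2] the number of edges -/
def Card2Stmt : Prop := ∀ (V E : Type) [Fintype V] [Fintype E] (s t : E → V) (g : E → SP),
  (∀ e, s e ≠ t e) → (∀ e, (g e).Ok) → (∀ e, 2 ≤ (g e).len) →
  Nat.card (spGraph s t g).edgeSet = ∑ e, (g e).size

/-- the star law -/
noncomputable def star2 {V U : Type} [Fintype V] [DecidableEq V] [Fintype U] [DecidableEq U]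
    (Q : U × U → ℝ) (m : V → ℕ) (ω : U × (V → U)) : ℝ :=
  mm Q ω.1 * ∏ v, zp (nb Q) (m v) ω.1 (ω.2 v)

/-- [T2] the star law -/
def Star2Stmt : Prop := ∀ (V U : Type) [Fintype V] [DecidableEq V] [Fintype U] [DecidableEq U]
  (Q : U × U → ℝ), Edge Q → ∀ (m : V → ℕ) (μ : ℕ), (∀ v, μ ≤ m v) →
  (∀ ω, 0 ≤ star2 Q m ω) ∧ (∑ ω, star2 Q m ω = 1) ∧
  ∀ u v, u ≠ v → mar (star2 Q m) (fun ω => (ω.2 u, ω.2 v)) = EE Q (m u + m v) ∧
    hh Q (m u + m v) + (Fintype.card V - 2 : ℝ) * (hh Q μ - aQ Q) ≤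
      Cart.ent (star2 Q m) (fun ω => ω.2)

/-- [K2] the mean logarithm of the weight of a part, by induction on the part -/
def Ker2Stmt : Prop := ∀ (U : Type) [Fintype U] [DecidableEq U] (A : U → U → ℝ) (Q : U × U → ℝ),
  Edge Q → (∀ x y, 0 ≤ A x y) → (∀ x y, Q (x, y) ≠ 0 → A x y = 1) → ∀ (μ : ℕ) (p : SP), p.Ok →
  (∀ x y, 0 ≤ p.wt A x y) ∧ (∀ x, EE Q p.len x ≠ 0 → p.wt A x.1 x.2 ≠ 0) ∧
  p.size * hQ Q - (2 * p.size - p.num - 2) * aQ Q - hh Q p.len +
    p.gain μ * (2 * aQ Q - hh Q μ) ≤ ∑ x, EE Q p.len x * Real.log (p.wt A x.1 x.2)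

/-- [E2] the entropy side, from [T2], [K2] and [GI] -/
def Ent2Stmt : Prop := ∀ (V E U : Type) [Fintype V] [DecidableEq V] [Fintype E] [Nonempty E]
  [Fintype U] [DecidableEq U] (s t : E → V), (∀ e, s e ≠ t e) → ∀ (m : V → ℕ) (μ : ℕ),
  (∀ v, μ ≤ m v) → ∀ (g : E → SP), (∀ e, (g e).Ok) → (∀ e, (g e).len = m (s e) + m (t e)) →
  ∀ (A : U → U → ℝ) (Q : U × U → ℝ), Edge Q → (∀ x y, 0 ≤ A x y) →
  (∀ x y, Q (x, y) ≠ 0 → A x y = 1) →
  0 < ng s t g A ∧
  (∑ e, ((g e).size : ℝ)) * hQ Q -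
    (∑ e, (2 * (g e).size - (g e).num : ℝ) - Fintype.card V) * aQ Q +
    (∑ e, ((g e).gain μ : ℝ) + 2 - Fintype.card V) * (2 * aQ Q - hh Q μ) ≤
      Real.log (ng s t g A)

/-- [F2] the theorem -/
def Final2Stmt : Prop := ∀ (V E : Type) [Fintype V] [Fintype E] [Nonempty E] (s t : E → V),
  (∀ e, s e ≠ t e) → ∀ (m : V → ℕ) (μ : ℕ), 2 ≤ μ → (∀ v, μ ≤ m v) → ∀ (g : E → SP),
  (∀ e, (g e).Ok) → (∀ e, (g e).len = m (s e) + m (t e)) → ∀ j : ℕ,
  Fintype.card V ≤ ∑ e, (g e).gain μ + j + 2 →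
  ∀ (X : Type) [Fintype X] [Nonempty X] (G : SimpleGraph X),
  edgeDensity G ^ (Nat.card (spGraph s t g).edgeSet + 4 * j) ≤
    homDensity (spGraph s t g) G * homDensity (SimpleGraph.cycleGraph 4) G ^ j

end Vale.Agent.P050.H936
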