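import Vale.Agent.P050.H936.Spec
import Vale.Agent.P050.H222.F

/-!
[S5]: densities.
-/

set_option linter.unusedSectionVars false

namespace Vale.Agent.P050.H936

open Finset Vale.Agent.P050.H148 Vale.Agent.P050.Cart Vale.Agent.P050.Join Vale.Agent.P050.M18
open Vale.Agent.P050.H546 Vale.Agent.P050.H222

/-- the number of 4-cycles -/
theorem four_log {X : Type} [Fintype X] [DecidableEq X] (G : SimpleGraph X)
    (hG : ∃ x y, G.Adj x y) :
    0 < tot G ∧ 4 * hQ (ue G) - 2 * aQ (ue G) - h2Q (ue G) ≤ Real.log (tot G) := by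
  have hE := ue_edge G hG
  have hC := ue_four G
  have hs := st_PP hE hC 1
  have key := ent_log_sum hs.lab.nn (hs.lab.tot hE) (fun x => x)
    (fun x => zp (CG G) 1 x.1 x.2) (fun x => zp_nonneg (CG_nn G) _ _ _) (fun x hx => hs.sup x hx)
  have e1 : ∑ x : (X × X) × (X × X), zp (CG G) 1 x.1 x.2 = tot G := by
    rw [Fintype.sum_prod_type]
    unfold tot
    refine Finset.sum_congr rfl fun a _ => Finset.sum_congr rfl fun b _ => ?_
    rw [zp_one]
  rw [e1] at key
  refine ⟨key.1, ?_⟩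
  have h1 := hs.va
  unfold M18.val at h1
  have e2 : ent (PP (ue G) 1) (fun x => (x.1, x.2)) = ent (PP (ue G) 1) (fun x => x) := rfl
  rw [e2] at h1
  have h2 := key.2
  have e3 : gQ (ue G) = 3 * hQ (ue G) - 2 * aQ (ue G) - h2Q (ue G) := rfl
  rw [e3] at h1
  push_cast at h1
  linarith

/-- [S5] -/
theorem final (he : EntStmt) (hg : GraphStmt) : FinalStmt := by
  intro V E _ _ _ s t hst κ c j hj X _ _ G
  classical
  have hm : 1 ≤ Fintype.card E := Fintype.card_pos
  rcases (edge_nn G).lt_or_eq with hp | hp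
  swap
  · have h0 : ∑ e, (κ (s e) + κ (t e) + 4 + 2 * c e) + 4 * j ≠ 0 := by
      obtain ⟨e0⟩ := ‹Nonempty E›
      have := Finset.single_le_sum (f := fun e => κ (s e) + κ (t e) + 4 + 2 * c e)
        (fun e _ => Nat.zero_le _) (mem_univ e0)
      omega
    rw [← hp, zero_pow h0]
    exact mul_nonneg (hom_nn G _) (pow_nonneg (hom_nn G _) _)
  have hG := exists_adj G hp
  have hn := card_pos' (X := X)
  obtain ⟨h1, h2⟩ := he V E X s t hst κ c (adj G) (ue G) (ue_edge G hG) (M18.adj_nn G)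
    (fun x y h => ue_ne G h)
  obtain ⟨h3, h4⟩ := four_log G hG
  rw [← hg V E X s t κ c G] at h1 h2
  rw [tot_num] at h3 h4
  have ht : 0 < homDensity (replaced s t κ c) G := by
    rcases (hom_nn G (replaced s t κ c)).lt_or_eq with h | h
    · exact h
    · rw [← h, zero_mul] at h1
      exact absurd h1 (lt_irrefl _)
  have ht4 : 0 < homDensity (SimpleGraph.cycleGraph 4) G := by
    rcases (hom_nn G (SimpleGraph.cycleGraph 4)).lt_or_eq with h | h
    · exact h
    · rw [← h, zero_mul] at h3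
      exact absurd h3 (lt_irrefl _)
  have h5 := ue_aQ G hG
  have h6 : hQ (ue G) = Real.log (edgeDensity G) + 2 * Real.log (Fintype.card X) := by
    rw [ue_hQ G hG]
    unfold de
    rw [Fintype.sum_prod_type]
    simp only
    rw [adj_sum', Real.log_mul hp.ne' (by positivity), Real.log_pow]
    push_cast
    ring
  have h7 := r_nonneg (ue_edge G hG)
  rw [Real.log_mul ht.ne' (by positivity), Real.log_pow] at h2
  rw [Real.log_mul ht4.ne' (by positivity), Real.log_pow] at h4
  rw [← Real.log_le_log_iff (by positivity) (by positivity), Real.log_pow,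
    Real.log_mul ht.ne' (by positivity), Real.log_pow]
  push_cast at h2 h4 ⊢
  have hj' : (Fintype.card V : ℝ) ≤ ∑ e, (c e : ℝ) + j + 2 := by exact_mod_cast hj
  have hm' : (1 : ℝ) ≤ Fintype.card E := by exact_mod_cast hm
  simp only [Finset.sum_add_distrib, ← Finset.mul_sum, Finset.sum_const, Finset.card_univ,
    nsmul_eq_mul] at h2 ⊢
  have hK : (0 : ℝ) ≤ ∑ e, (κ (s e) : ℝ) := Finset.sum_nonneg fun e _ => Nat.cast_nonneg _
  have hK' : (0 : ℝ) ≤ ∑ e, (κ (t e) : ℝ) := Finset.sum_nonneg fun e _ => Nat.cast_nonneg _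
  have hC : (0 : ℝ) ≤ ∑ e, (c e : ℝ) := Finset.sum_nonneg fun e _ => Nat.cast_nonneg _
  have hj0 : (0 : ℝ) ≤ j := Nat.cast_nonneg _
  set K := ∑ e, (κ (s e) : ℝ)
  set K' := ∑ e, (κ (t e) : ℝ)
  set C := ∑ e, (c e : ℝ)
  set m : ℝ := (Fintype.card E : ℝ)
  set n : ℝ := (Fintype.card V : ℝ)
  set a := aQ (ue G)
  set L := Real.log (Fintype.card X)
  set lp := Real.log (edgeDensity G)
  set r := 2 * a - h2Q (ue G) with hr
  have h8 := mul_le_mul_of_nonneg_left h4 hj0
  have h9 : 0 ≤ (C + j + 2 - n) * r := mul_nonneg (by linarith) h7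
  have h10 : 0 ≤ (K + K' + 5 * m + 3 * C - n + 4 * j) * (L - a) :=
    mul_nonneg (by nlinarith) (by linarith)
  rw [h6] at h2 h8
  have h11 : h2Q (ue G) = 2 * a - r := by rw [hr]; ring
  rw [h11] at h8
  nlinarith [h2, h8, h9, h10]

end Vale.Agent.P050.H936
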