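import Vale.Agent.P050.H936.Spec2
import Vale.Agent.P050.H936.Final
import Vale.Agent.P050.H23.GI

/-!
[F2]: densities.
-/

set_option linter.unusedSectionVars false

namespace Vale.Agent.P050.H936

open Finset Vale.Agent.P050.H148 Vale.Agent.P050.Cart Vale.Agent.P050.Join Vale.Agent.P050.M18
open Vale.Agent.P050.H546 Vale.Agent.P050.H222

theorem SP.size_ge (μ : ℕ) (p : SP) (h : p.Ok) : p.num + p.len + 1 + p.gain μ ≤ 2 * p.size := by
  induction p with
  | edge => simp [SP.num, SP.len, SP.gain, SP.size]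
  | ser p q hp hq =>
    have h1 := hp h.1
    have h2 := hq h.2
    simp only [SP.num, SP.len, SP.gain, SP.size]
    omega
  | par p q hp hq =>
    have h1 := hp h.1
    have h2 := hq h.2.1
    simp only [SP.num, SP.len, SP.gain, SP.size]
    split_ifs <;> omega
  | hang p q hp hq =>
    have h1 := hp h.1
    have h2 := hq h.2
    simp only [SP.num, SP.len, SP.gain, SP.size]
    omega
  | rev p hp => exact hp h

/-- [F2] -/
theorem final2 (he : Ent2Stmt) (hg : Graph2Stmt) (hc : Card2Stmt) : Final2Stmt := by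
  intro V E _ _ _ s t hst m μ hμ hm g hok hlen j hj X _ _ G
  classical
  have hE1 : 1 ≤ Fintype.card E := Fintype.card_pos
  have hlen4 : ∀ e, 4 ≤ (g e).len := by
    intro e
    rw [hlen e]
    have h1 := hm (s e)
    have h2 := hm (t e)
    omega
  rw [hc V E s t g hst hok (fun e => by have := hlen4 e; omega)]
  have hsz : ∑ e, (g e).num + 5 * Fintype.card E + ∑ e, (g e).gain μ ≤ 2 * ∑ e, (g e).size := by
    have h1 : ∑ e, ((g e).num + 5 + (g e).gain μ) ≤ ∑ e, 2 * (g e).size := by
      refine Finset.sum_le_sum fun e _ => ?_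
      have h2 := SP.size_ge μ (g e) (hok e)
      have h3 := hlen4 e
      omega
    simp only [Finset.sum_add_distrib, Finset.sum_const, Finset.card_univ, smul_eq_mul,
      ← Finset.mul_sum] at h1
    omega
  rcases (edge_nn G).lt_or_eq with hp | hp
  swap
  · have h0 : ∑ e, (g e).size + 4 * j ≠ 0 := by omega
    rw [← hp, zero_pow h0]
    exact mul_nonneg (hom_nn G _) (pow_nonneg (hom_nn G _) _)
  have hG := exists_adj G hp
  have hn := card_pos' (X := X)
  have hE := ue_edge G hG
  obtain ⟨h1, h2⟩ := he V E X s t hst m μ hm g hok hlen (adj G) (ue G) hE (M18.adj_nn G)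
    (fun x y h => ue_ne G h)
  obtain ⟨h3, h4⟩ := four_log G hG
  rw [← hg V E X s t hst g G] at h1 h2
  rw [tot_num] at h3 h4
  have ht : 0 < homDensity (spGraph s t g) G := by
    rcases (hom_nn G (spGraph s t g)).lt_or_eq with h | h
    · exact h
    · rw [← h, zero_mul] at h1
      exact absurd h1 (lt_irrefl _)
  have ht4 : 0 < homDensity (SimpleGraph.cycleGraph 4) G := by
    rcases (hom_nn G (SimpleGraph.cycleGraph 4)).lt_or_eq with h | h
    · exact h
    · rw [← h, zero_mul] at h3
      exact absurd h3 (lt_irrefl _)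
  have h5 := ue_aQ G hG
  have h6 : hQ (ue G) = Real.log (edgeDensity G) + 2 * Real.log (Fintype.card X) := by
    rw [ue_hQ G hG]
    unfold de
    rw [Fintype.sum_prod_type]
    simp only
    rw [adj_sum', Real.log_mul hp.ne' (by positivity), Real.log_pow]
    push_cast
    ring
  obtain ⟨i1, i2, i3, -⟩ := H23.gInf X (ue G) hE
  have h7 : hh (ue G) 2 ≤ hh (ue G) μ := monotone_nat_of_le_succ i3 hμ
  rw [i1] at h7
  have h8 := i2 μ
  rw [Real.log_mul ht.ne' (by positivity), Real.log_pow] at h2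
  rw [Real.log_mul ht4.ne' (by positivity), Real.log_pow] at h4
  rw [← Real.log_le_log_iff (by positivity) (by positivity), Real.log_pow,
    Real.log_mul ht.ne' (by positivity), Real.log_pow]
  push_cast at h2 h4 ⊢
  have hj' : (Fintype.card V : ℝ) ≤ ∑ e, ((g e).gain μ : ℝ) + j + 2 := by exact_mod_cast hj
  have hsz' : ∑ e, ((g e).num : ℝ) + 5 * Fintype.card E + ∑ e, ((g e).gain μ : ℝ) ≤
      2 * ∑ e, ((g e).size : ℝ) := by exact_mod_cast hsz
  have hm' : (1 : ℝ) ≤ Fintype.card E := by exact_mod_cast hE1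
  simp only [Finset.sum_sub_distrib, ← Finset.mul_sum] at h2 ⊢
  have hj0 : (0 : ℝ) ≤ j := Nat.cast_nonneg _
  have hC : (0 : ℝ) ≤ ∑ e, ((g e).gain μ : ℝ) := Finset.sum_nonneg fun e _ => Nat.cast_nonneg _
  set S := ∑ e, ((g e).size : ℝ)
  set N := ∑ e, ((g e).num : ℝ)
  set C := ∑ e, ((g e).gain μ : ℝ)
  set k : ℝ := (Fintype.card E : ℝ)
  set n : ℝ := (Fintype.card V : ℝ)
  set a := aQ (ue G)
  set L := Real.log (Fintype.card X)
  set lp := Real.log (edgeDensity G)
  set y := hh (ue G) μ
  set z := h2Q (ue G)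
  have h9 := mul_le_mul_of_nonneg_left h4 hj0
  have h10 : 0 ≤ (C + j + 2 - n) * (2 * a - y) := mul_nonneg (by linarith) (by linarith)
  have h11 : 0 ≤ (2 * S - N - n + 4 * j) * (L - a) := mul_nonneg (by linarith) (by linarith)
  have h12 : 0 ≤ (j : ℝ) * (y - z) := mul_nonneg hj0 (by linarith)
  rw [h6] at h2 h9
  nlinarith [h2, h9, h10, h11, h12]

end Vale.Agent.P050.H936
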