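import Vale.Agent.P050.TDefs

/-!
Statement-level definitions.
-/

namespace Vale.Agent.P050.H936

/-- The end of a half-edge. A finite multigraph is given by its vertex set `V`, its edge set `E`
and the two ends `s e`, `t e` of each edge `e`; the half-edge `(e, false)` ends in `s e` and
`(e, true)` ends in `t e`. -/
def en {V E : Type} (s t : E → V) (h : E × Bool) : V := cond h.2 (t h.1) (s h.1)

/-- The vertices of `replaced s t κ c`: the vertices of the multigraph; for each half-edge with
end `v`, the `κ v + 1` vertices `0, ..., κ v` of its arm; for each edge `e`, its `c e + 1` middle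
vertices. -/
abbrev Vert {V E : Type} (s t : E → V) (κ : V → ℕ) (c : E → ℕ) : Type :=
  V ⊕ ((Σ h : E × Bool, Fin (κ (en s t h) + 1)) ⊕ (Σ e : E, Fin (c e + 1)))

/-- The multigraph with each edge `e` replaced: each half-edge with end `v` becomes a path
`v, 0, ..., κ v`, and the last vertices of the two arms of `e` are joined to each of the `c e + 1`
middle vertices of `e`. So `e` becomes a path with `(κ (s e) + 2) + (κ (t e) + 2)` edges from `s e`
to `t e`, together with `c e` copies of its vertex at distance `κ (s e) + 2` from `s e`. -/
def replaced {V E : Type} (s t : E → V) (κ : V → ℕ) (c : E → ℕ) :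
    SimpleGraph (Vert s t κ c) :=
  SimpleGraph.fromRel fun a b => match a, b with
    | .inl v, .inr (.inl i) => v = en s t i.1 ∧ (i.2 : ℕ) = 0
    | .inr (.inl i), .inr (.inl i') => i.1 = i'.1 ∧ (i.2 : ℕ) + 1 = i'.2
    | .inr (.inl i), .inr (.inr m) => i.1.1 = m.1 ∧ (i.2 : ℕ) = κ (en s t i.1)
    | _, _ => False

end Vale.Agent.P050.H936
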