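import Vale.Agent.P050.H546.GSpec
import Vale.Agent.P050.H936.Defs

/-!
The rows: every edge of a multigraph is replaced by a path with a multiplied vertex.
-/

set_option linter.unusedSectionVars false

namespace Vale.Agent.P050.H936

open Finset Vale.Agent.P050.H148 Vale.Agent.P050.Cart Vale.Agent.P050.M18 Vale.Agent.P050.H546

/-- the weight which replaces an edge: arms of lengths `i + 1`, `j + 1`, and `c + 1` middle
vertices -/
def wt {U : Type} [Fintype U] [DecidableEq U] (A : U → U → ℝ) (i j c : ℕ) (x y : U) : ℝ :=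
  ∑ a, ∑ b, zp A (i + 1) x a * zp A 2 a b ^ (c + 1) * zp A (j + 1) y b

/-- the number of homomorphisms of `replaced s t κ c` -/
def nr {V E U : Type} [Fintype V] [DecidableEq V] [Fintype E] [Fintype U] [DecidableEq U]
    (s t : E → V) (κ : V → ℕ) (c : E → ℕ) (A : U → U → ℝ) : ℝ :=
  ∑ x : V → U, ∏ e, wt A (κ (s e)) (κ (t e)) (c e) (x (s e)) (x (t e))

/-- [S4] the graph side -/
def GraphStmt : Prop := ∀ (V E X : Type) [Fintype V] [DecidableEq V] [Fintype E] [Fintype X]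
  [Nonempty X] [DecidableEq X] (s t : E → V) (κ : V → ℕ) (c : E → ℕ) (G : SimpleGraph X),
  homDensity (replaced s t κ c) G *
    (Fintype.card X : ℝ) ^ (Fintype.card V + ∑ e, (κ (s e) + κ (t e) + c e + 3)) =
    nr s t κ c (adj G)

/-- [S4'] the number of edges (no `s e ≠ t e` is needed) -/
def CardStmt : Prop := ∀ (V E : Type) [Fintype V] [Fintype E] (s t : E → V) (κ : V → ℕ)
  (c : E → ℕ), Nat.card (replaced s t κ c).edgeSet = ∑ e, (κ (s e) + κ (t e) + 4 + 2 * c e)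

/-- the star law: `z` with the law `mm Q` and, given `z`, independent ends `x v` of walks of
length `κ v + 2` from `z` -/
noncomputable def star {V U : Type} [Fintype V] [DecidableEq V] [Fintype U] [DecidableEq U]
    (Q : U × U → ℝ) (κ : V → ℕ) (ω : U × (V → U)) : ℝ :=
  mm Q ω.1 * ∏ v, zp (nb Q) (κ v + 2) ω.1 (ω.2 v)

/-- [S1] the star law -/
def StarStmt : Prop := ∀ (V U : Type) [Fintype V] [DecidableEq V] [Fintype U] [DecidableEq U]
  (Q : U × U → ℝ), Edge Q → ∀ κ : V → ℕ,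
  (∀ ω, 0 ≤ star Q κ ω) ∧ (∑ ω, star Q κ ω = 1) ∧
  ∀ u v, u ≠ v → mar (star Q κ) (fun ω => (ω.2 u, ω.2 v)) = EE Q (κ u + κ v + 4) ∧
    hh Q (κ u + κ v + 4) + (Fintype.card V - 2 : ℝ) * (h2Q Q - aQ Q) ≤
      Cart.ent (star Q κ) (fun ω => ω.2)

/-- [S2] the mean logarithm of the weight -/
def KerStmt : Prop := ∀ (U : Type) [Fintype U] [DecidableEq U] (A : U → U → ℝ) (Q : U × U → ℝ),
  Edge Q → (∀ x y, 0 ≤ A x y) → (∀ x y, Q (x, y) ≠ 0 → A x y = 1) → ∀ i j c : ℕ,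
  (∀ x, EE Q (i + j + 4) x ≠ 0 → wt A i j c x.1 x.2 ≠ 0) ∧
  (i + j + 4) * hQ Q - (i + j + 3) * aQ Q - hh Q (i + j + 4) + c * (2 * hQ Q - aQ Q - h2Q Q) ≤
    ∑ x, EE Q (i + j + 4) x * Real.log (wt A i j c x.1 x.2)

/-- [S3] the entropy side, from [S1], [S2] and [GI] -/
def EntStmt : Prop := ∀ (V E U : Type) [Fintype V] [DecidableEq V] [Fintype E] [Nonempty E]
  [Fintype U] [DecidableEq U] (s t : E → V), (∀ e, s e ≠ t e) → ∀ (κ : V → ℕ) (c : E → ℕ)
  (A : U → U → ℝ) (Q : U × U → ℝ), Edge Q → (∀ x y, 0 ≤ A x y) →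
  (∀ x y, Q (x, y) ≠ 0 → A x y = 1) →
  0 < nr s t κ c A ∧
  (∑ e, (κ (s e) + κ (t e) + 4 + 2 * c e : ℝ)) * hQ Q -
    (∑ e, (κ (s e) + κ (t e) + 5 + 3 * c e : ℝ) - Fintype.card V) * aQ Q +
    (∑ e, (c e : ℝ) + 2 - Fintype.card V) * (2 * aQ Q - h2Q Q) ≤ Real.log (nr s t κ c A)

/-- [S5] the theorem -/
def FinalStmt : Prop := ∀ (V E : Type) [Fintype V] [Fintype E] [Nonempty E] (s t : E → V),
  (∀ e, s e ≠ t e) → ∀ (κ : V → ℕ) (c : E → ℕ) (j : ℕ), Fintype.card V ≤ ∑ e, c e + j + 2 →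
  ∀ (X : Type) [Fintype X] [Nonempty X] (G : SimpleGraph X),
  edgeDensity G ^ (∑ e, (κ (s e) + κ (t e) + 4 + 2 * c e) + 4 * j) ≤
    homDensity (replaced s t κ c) G * homDensity (SimpleGraph.cycleGraph 4) G ^ j

end Vale.Agent.P050.H936
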